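import Vale.Agent.P011.D4Z.H68.OutI
import Vale.Agent.P011.D4Z.H493.Clg
import Vale.Agent.P011.D4Y.H691.Top

/-!
Block D4Z, groups of noncyclic cubic extensions: the density argument from the one place statement.
-/

open Topology NumberField

namespace Vale.Agent.P011.D4Z.H68

open Vale.Agent.P011.MPQ Vale.Agent.P011.D4 Vale.Agent.P011.D4.Oct Vale.Agent.P011.D4X
open Vale.Agent.P011.D4Y
open Vale.Agent.P011.E6
open scoped ComplexConjugate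

variable {k L E : Type} [Field k] [NumberField k] [Field L] [NumberField L] [Field E]
  [NumberField E] [Algebra k L] [Algebra k E] [Algebra L E]
  [IsScalarTower k L E] [NeZero (2 : E)] {ρ σ ι : E ≃ₐ[k] E} {α : E}
  {a b c : kˣ} {q : Lˣ} (H : HyI ρ σ ι α a b c q)

include H

theorem mem_of_oneI (hX : ∀ τ : k →+* ℝ, τ a < 0 → τ b < 0 ∧ τ c < 0) (ho : HOdd a q)
    {g : OctL E a b c ≃ₗ[E] OctL E a b c} (hg : g ∈ GTI ρ σ ι α a b c q)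
    (h1 : (1 : Bd ρ σ q → Matrix (Fin 8) (Fin 8) ℂ) ∈
      clg (Bd ρ σ q) (RsI ρ σ ι α a b c q) g) : g ∈ RsI ρ σ ι α a b c q :=
  mem_of_one_of (BdI_finite H) (fun _ h => RsI_le h) (D4Y.open_top H hX ho) hg h1

theorem gt_topI_of (hX : ∀ τ : k →+* ℝ, τ a < 0 → τ b < 0 ∧ τ c < 0) (ho : HOdd a q)
    (hone : ∀ g ∈ GTI ρ σ ι α a b c q, ∀ (_ : Algebra k ℂ) (W : E →ₐ[k] ℂ)
      (hW : (W : E →+* ℂ) ∈ Bd ρ σ q) (hW' : (cmp W ρ : E →+* ℂ) ∈ Bd ρ σ q)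
      (hW'' : (cmp (cmp W ρ) ρ : E →+* ℂ) ∈ Bd ρ σ q),
      (W (algebraMap L E q)).re < 0 → 0 < (W (ρ (algebraMap L E q))).re →
      ∀ Y ∈ clg (Bd ρ σ q) (RsI ρ σ ι α a b c q) g,
        ∃ Y' ∈ clg (Bd ρ σ q) (RsI ρ σ ι α a b c q) g, Y' ⟨W, hW⟩ = 1 ∧
          Y' ⟨cmp W ρ, hW'⟩ = 1 ∧ Y' ⟨cmp (cmp W ρ) ρ, hW''⟩ = 1 ∧
          ∀ V : Bd ρ σ q, V.1.comp (algebraMap k E) ≠ algebraMap k ℂ → Y' V = Y V) :
    GTI ρ σ ι α a b c q ≤ RsI ρ σ ι α a b c q := fun g hg =>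
  mem_of_oneI H hX ho hg (outerI H (fun _ hz => (RsI_le hz).2.2) hg.2.2 (hone g hg)
    self_mem_clg)

end Vale.Agent.P011.D4Z.H68
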