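import Vale.Agent.P011.D4Z.Defs
import Vale.Agent.P011.D4Y.H69.NearI
import Vale.Agent.P011.D4Y.H68.Nf
import Mathlib.FieldTheory.Galois.Basic

/-!
Block D4Z, groups of noncyclic cubic extensions: the embeddings over a place of `k`, and the
induction over the bad places.
-/

open Topology NumberField

set_option linter.unusedSectionVars false

namespace Vale.Agent.P011.D4Z.H68

open Vale.Agent.P011.MPQ Vale.Agent.P011.D4 Vale.Agent.P011.D4.Oct Vale.Agent.P011.D4X
open Vale.Agent.P011.D4Y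
open Vale.Agent.P011.E6
open scoped ComplexConjugate

section emb

variable {k L E : Type} [Field k] [NumberField k] [Field L] [NumberField L] [Field E]
  [NumberField E] [Algebra k L] [Algebra k E] [Algebra L E]
  [IsScalarTower k L E] [NeZero (2 : E)] {ρ σ ι : E ≃ₐ[k] E} {α : E}
  {a b c : kˣ} {q : Lˣ} (H : HyI ρ σ ι α a b c q)

include H

/-- A set of embeddings which is stable under `ρ`, `σ`, `ι` contains all the embeddings over a
place of `k`. -/
theorem orb_all [Algebra k ℂ] {W : E →ₐ[k] ℂ} {T : Set (E →ₐ[k] ℂ)} (hW : W ∈ T)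
    (hρ : ∀ V ∈ T, cmp V ρ ∈ T) (hσ : ∀ V ∈ T, cmp V σ ∈ T) (hι : ∀ V ∈ T, cmp V ι ∈ T)
    (V : E →ₐ[k] ℂ) : V ∈ T := by
  have hfin : FiniteDimensional k E := H.finite
  set G : Subgroup (E ≃ₐ[k] E) := Subgroup.closure {ρ, σ, ι} with hG
  have mρ : ρ ∈ G := Subgroup.subset_closure (by simp)
  have mσ : σ ∈ G := Subgroup.subset_closure (by simp)
  have mι : ι ∈ G := Subgroup.subset_closure (by simp)
  have hfix : IntermediateField.fixedField G = ⊥ := by
    rw [eq_bot_iff]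
    intro x hx
    rw [IntermediateField.mem_fixedField_iff] at hx
    obtain ⟨t, ht⟩ := H.fixk x (hx ρ mρ) (hx σ mσ) (hx ι mι)
    rw [IntermediateField.mem_bot]
    exact ⟨t, ht⟩
  have hgal : IsGalois k E := by
    refine IsGalois.of_fixedField_eq_bot k E ?_
    rw [eq_bot_iff, ← hfix]
    exact IntermediateField.fixedField_antitone le_top
  have hGtop : G = ⊤ := by
    have h1 := IntermediateField.fixingSubgroup_fixedField G
    rw [hfix, IntermediateField.fixingSubgroup_bot] at h1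
    exact h1.symm
  -- every embedding is `W ∘ g`
  obtain ⟨g, rfl⟩ : ∃ g : E ≃ₐ[k] E, cmp W g = V := by
    have hinj : Function.Injective (fun g : E ≃ₐ[k] E => cmp W g) := by
      intro g g' h
      ext x
      have h1 := congrArg (fun f : E →ₐ[k] ℂ => f x) h
      exact (W : E →+* ℂ).injective h1
    have hcard : Nat.card (E →ₐ[k] ℂ) ≤ Nat.card (E ≃ₐ[k] E) := by
      rw [IsGalois.card_aut_eq_finrank, Nat.card_eq_fintype_card, AlgHom.card]
    exact (hinj.bijective_of_nat_card_le hcard).2 V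
  have key : ∀ g ∈ G, ∀ V ∈ T, cmp V g ∈ T ∧ cmp V g⁻¹ ∈ T := by
    intro g hg
    induction hg using Subgroup.closure_induction with
    | mem x hx =>
      intro V hV
      rcases hx with rfl | rfl | rfl
      · refine ⟨hρ V hV, ?_⟩
        have e : cmp V x⁻¹ = cmp (cmp V x) x := by
          ext y
          change V (x⁻¹ y) = V (x (x y))
          congr 1
          apply x.injective
          rw [H.ρ3]
          exact x.apply_symm_apply y
        rw [e]
        exact hρ _ (hρ V hV)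
      · refine ⟨hσ V hV, ?_⟩
        have e : cmp V x⁻¹ = cmp V x := by
          ext y
          change V (x⁻¹ y) = V (x y)
          congr 1
          apply x.injective
          rw [H.σ2]
          exact x.apply_symm_apply y
        rw [e]
        exact hσ V hV
      · refine ⟨hι V hV, ?_⟩
        have e : cmp V x⁻¹ = cmp V x := by
          ext y
          change V (x⁻¹ y) = V (x y)
          congr 1
          apply x.injective
          rw [H.ι2]
          exact x.apply_symm_apply y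
        rw [e]
        exact hι V hV
    | one => intro V hV; exact ⟨hV, by rw [inv_one]; exact hV⟩
    | mul x y _ _ hx hy =>
      intro V hV
      refine ⟨(hy _ (hx V hV).1).1, ?_⟩
      rw [mul_inv_rev]
      exact (hx _ (hy V hV).2).2
    | inv x _ hx =>
      intro V hV
      refine ⟨(hx V hV).2, ?_⟩
      rw [inv_inv]
      exact (hx V hV).1
  exact (key g (by rw [hGtop]; exact Subgroup.mem_top g) W hW).1

/-- All the embeddings over the same place of `k`. -/
theorem emb_orbitI [Algebra k ℂ] (W V : E →ₐ[k] ℂ) :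
    ∃ U, (U = W ∨ U = cmp W ρ ∨ U = cmp (cmp W ρ) ρ) ∧
      (V = U ∨ V = cmp U σ ∨ V = cmp U ι ∨ V = cmp (cmp U ι) σ) := by
  have hc : ∀ {U : E →ₐ[k] ℂ}, (U = W ∨ U = cmp W ρ ∨ U = cmp (cmp W ρ) ρ) →
      (cmp U ρ = W ∨ cmp U ρ = cmp W ρ ∨ cmp U ρ = cmp (cmp W ρ) ρ) := by
    rintro U (rfl | rfl | rfl)
    · exact Or.inr (Or.inl rfl)
    · exact Or.inr (Or.inr rfl)
    · left
      ext y
      change W (ρ (ρ (ρ y))) = W y
      rw [H.ρ3]
  refine orb_all H (W := W) (T := {V | ∃ U, (U = W ∨ U = cmp W ρ ∨ U = cmp (cmp W ρ) ρ) ∧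
      (V = U ∨ V = cmp U σ ∨ V = cmp U ι ∨ V = cmp (cmp U ι) σ)})
    ⟨W, Or.inl rfl, Or.inl rfl⟩ ?_ ?_ ?_ V
  · rintro V ⟨U, hU, rfl | rfl | rfl | rfl⟩
    · exact ⟨_, hc hU, Or.inl rfl⟩
    · refine ⟨_, hc hU, Or.inr (Or.inl ?_)⟩
      ext y
      change U (σ (ρ y)) = U (ρ (σ y))
      rw [H.comm]
    · refine ⟨_, hc (hc hU), Or.inr (Or.inr (Or.inl ?_))⟩
      ext y
      change U (ι (ρ y)) = U (ρ (ρ (ι y)))
      rw [H.ιρ]
    · refine ⟨_, hc (hc hU), Or.inr (Or.inr (Or.inr ?_))⟩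
      ext y
      change U (ι (σ (ρ y))) = U (ρ (ρ (ι (σ y))))
      rw [H.comm, H.ιρ]
  · rintro V ⟨U, hU, rfl | rfl | rfl | rfl⟩
    · exact ⟨_, hU, Or.inr (Or.inl rfl)⟩
    · refine ⟨_, hU, Or.inl ?_⟩
      ext y
      change U (σ (σ y)) = U y
      rw [H.σ2]
    · exact ⟨_, hU, Or.inr (Or.inr (Or.inr rfl))⟩
    · refine ⟨_, hU, Or.inr (Or.inr (Or.inl ?_))⟩
      ext y
      change U (ι (σ (σ y))) = U (ι y)
      rw [H.σ2]
  · rintro V ⟨U, hU, rfl | rfl | rfl | rfl⟩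
    · exact ⟨_, hU, Or.inr (Or.inr (Or.inl rfl))⟩
    · refine ⟨_, hU, Or.inr (Or.inr (Or.inr ?_))⟩
      ext y
      change U (σ (ι y)) = U (ι (σ y))
      rw [H.σι]
    · refine ⟨_, hU, Or.inl ?_⟩
      ext y
      change U (ι (ι y)) = U y
      rw [H.ι2]
    · refine ⟨_, hU, Or.inr (Or.inl ?_)⟩
      ext y
      change U (ι (σ (ι y))) = U (σ y)
      rw [H.σι, H.ι2]

/-- The embedding of type one over a bad place. -/
theorem exists_type_oneI {V : E →+* ℂ} (hV : V ∈ Bd ρ σ q) : ∃ W ∈ Bd ρ σ q,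
    W.comp (algebraMap k E) = V.comp (algebraMap k E) ∧ (W (algebraMap L E q)).re < 0 ∧
      0 < (W (ρ (algebraMap L E q))).re := by
  obtain ⟨q0, hq0⟩ : ∃ q0, q0 = algebraMap L E (q : L) := ⟨_, rfl⟩
  have e1 : V.comp (ρ : E →+* E) ∈ Bd ρ σ q := BdI_rho H V hV
  have e2 : (V.comp (ρ : E →+* E)).comp (ρ : E →+* E) ∈ Bd ρ σ q := BdI_rho H _ e1
  have hσ0 : σ q0 = q0 := by rw [hq0]; exact H.σL _
  have re_of : ∀ {W : E →+* ℂ}, W ∈ Bd ρ σ q → W q0 = (((W q0).re : ℝ) : ℂ) := fun {W} hW => by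
    have h1 := Bd_im hW hσ0
    exact Complex.ext (by simp) (by simpa using h1)
  have hq00 : q0 ≠ 0 := by
    rw [hq0]
    exact (map_ne_zero _).2 q.ne_zero
  obtain ⟨r0, h0⟩ : ∃ r0, r0 = (V q0).re := ⟨_, rfl⟩
  obtain ⟨r1, h1⟩ : ∃ r1, r1 = (V (ρ q0)).re := ⟨_, rfl⟩
  obtain ⟨r2, h2⟩ : ∃ r2, r2 = (V (ρ (ρ q0))).re := ⟨_, rfl⟩
  have c0 : V q0 = (r0 : ℂ) := by rw [h0]; exact re_of hV
  have c1 : V (ρ q0) = (r1 : ℂ) := by rw [h1]; exact re_of e1
  have c2 : V (ρ (ρ q0)) = (r2 : ℂ) := by rw [h2]; exact re_of e2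
  have hN : r0 * r1 * r2 = 1 := by
    have h3 := congrArg V H.hq
    rw [← hq0, map_mul, map_mul, map_one, c0, c1, c2] at h3
    exact_mod_cast h3
  have hbad : ¬ (0 < r0 ∧ 0 < r1 ∧ 0 < r2) := by
    rw [h0, h1, h2, hq0]
    exact hV.2
  have n0 : r0 ≠ 0 := by rintro rfl; simp at hN
  have n1 : r1 ≠ 0 := by rintro rfl; simp at hN
  have n2 : r2 ≠ 0 := by rintro rfl; simp at hN
  have hk1 : (V.comp (ρ : E →+* E)).comp (algebraMap k E) = V.comp (algebraMap k E) := by
    ext t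
    change V (ρ (algebraMap k E t)) = V (algebraMap k E t)
    rw [AlgEquiv.commutes]
  have hk2 : ((V.comp (ρ : E →+* E)).comp (ρ : E →+* E)).comp (algebraMap k E) =
      V.comp (algebraMap k E) := by
    ext t
    change V (ρ (ρ (algebraMap k E t))) = V (algebraMap k E t)
    rw [AlgEquiv.commutes, AlgEquiv.commutes]
  rw [← hq0]
  rcases lt_or_gt_of_ne n0 with g0 | g0 <;> rcases lt_or_gt_of_ne n1 with g1 | g1 <;>
    rcases lt_or_gt_of_ne n2 with g2 | g2
  · exfalso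
    have := mul_neg_of_pos_of_neg (mul_pos_of_neg_of_neg g0 g1) g2
    linarith
  · -- r0, r1 < 0 < r2
    refine ⟨_, e1, hk1, ?_, ?_⟩
    · change (V (ρ q0)).re < 0
      rw [← h1]; exact g1
    · change 0 < (V (ρ (ρ q0))).re
      rw [← h2]; exact g2
  · refine ⟨_, hV, rfl, ?_, ?_⟩
    · rw [← h0]; exact g0
    · rw [← h1]; exact g1
  · exfalso
    have := mul_neg_of_neg_of_pos (mul_neg_of_neg_of_pos g0 g1) g2
    linarith
  · -- 0 < r0, r1 < 0, r2 < 0
    refine ⟨_, e2, hk2, ?_, ?_⟩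
    · change (V (ρ (ρ q0))).re < 0
      rw [← h2]; exact g2
    · change 0 < (V (ρ (ρ (ρ q0)))).re
      rw [H.ρ3, ← h0]; exact g0
  · exfalso
    have := mul_neg_of_neg_of_pos (mul_neg_of_pos_of_neg g0 g1) g2
    linarith
  · exfalso
    have := mul_neg_of_pos_of_neg (mul_pos g0 g1) g2
    linarith
  · exact absurd ⟨g0, g1, g2⟩ hbad

end emb

end Vale.Agent.P011.D4Z.H68
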