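import Vale.Agent.P011.D4Z.H68.OrbI
import Vale.Agent.P011.D4Z.H862.Orb

/-!
Block D4Z, groups of noncyclic cubic extensions: the induction over the bad places.
-/

open Topology NumberField

set_option linter.unusedSectionVars false

namespace Vale.Agent.P011.D4Z.H68

open Vale.Agent.P011.MPQ Vale.Agent.P011.D4 Vale.Agent.P011.D4.Oct Vale.Agent.P011.D4X
open Vale.Agent.P011.D4Y
open scoped ComplexConjugate

section im

variable {k E : Type} [Field k] [Field E] [Algebra k E] {a b c : kˣ} {ι : E ≃ₐ[k] E}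

/-- The signs of the involution in coordinates. -/
def sI (i : Fin 8) : ℤ := if i = 0 then 1 else -1

theorem sI_mul_self (i : Fin 8) : sI i * sI i = 1 := by
  unfold sI
  split_ifs <;> rfl

theorem co8_star (x : OctL E a b c) (i : Fin 8) : co8 (star x) i = ((sI i : ℤ) : E) * co8 x i := by
  fin_cases i <;> simp [co8, sI]

theorem star_single (j : Fin 8) :
    star (of8 (Pi.single j 1) : OctL E a b c) = ((sI j : ℤ) : E) • of8 (Pi.single j 1) := by
  have h : co8 (star (of8 (Pi.single j 1) : OctL E a b c)) =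
      co8 (((sI j : ℤ) : E) • of8 (Pi.single j 1) : OctL E a b c) := by
    funext i
    rw [co8_star, co8_of8, D4Z.co8_smul, Pi.smul_apply, smul_eq_mul, co8_of8]
    by_cases hij : i = j
    · rw [hij]
    · rw [Pi.single_eq_of_ne hij, mul_zero, mul_zero]
  exact congrArg (fun v => (of8 v : OctL E a b c)) h

theorem co8_omap (x : OctL E a b c) (i : Fin 8) : co8 (omap ι x) i = ι (co8 x i) := by
  fin_cases i <;> rfl

theorem omap_single (j : Fin 8) :
    omap ι (of8 (Pi.single j 1) : OctL E a b c) = of8 (Pi.single j 1) := by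
  have h : co8 (omap ι (of8 (Pi.single j 1) : OctL E a b c)) =
      co8 (of8 (Pi.single j 1) : OctL E a b c) := by
    funext i
    rw [co8_omap, co8_of8]
    by_cases hij : i = j
    · subst hij
      rw [Pi.single_eq_same, map_one]
    · rw [Pi.single_eq_of_ne hij, map_zero]
  have h1 := congrArg (fun v => (of8 v : OctL E a b c)) h
  exact h1

/-- The matrix at `V ∘ ι` of a map which commutes with `I`. -/
theorem matW_iota {g : OctL E a b c ≃ₗ[E] OctL E a b c} (hg : ∀ x, g (Im ι x) = Im ι (g x))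
    (V : E →+* ℂ) (i j : Fin 8) :
    matW (V.comp (ι : E →+* E)) g i j = ((sI i * sI j : ℤ) : ℂ) * matW V g i j := by
  have h1 := hg (of8 (Pi.single j 1))
  have h2 : Im ι (of8 (Pi.single j 1) : OctL E a b c) =
      ((sI j : ℤ) : E) • of8 (Pi.single j 1) := by
    change omap ι (star _) = _
    rw [star_single]
    have h3 : co8 (omap ι (((sI j : ℤ) : E) • of8 (Pi.single j 1) : OctL E a b c)) =
        co8 (((sI j : ℤ) : E) • of8 (Pi.single j 1) : OctL E a b c) := by
      funext i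
      rw [co8_omap, D4Z.co8_smul, Pi.smul_apply, smul_eq_mul, map_mul, map_intCast, ← co8_omap,
        omap_single]
    exact congrArg (fun v => (of8 v : OctL E a b c)) h3
  rw [h2, map_smul] at h1
  have h4 := congrArg (fun x => co8 x i) h1
  change co8 (((sI j : ℤ) : E) • g (of8 (Pi.single j 1))) i =
    co8 (omap ι (star (g (of8 (Pi.single j 1))))) i at h4
  rw [D4Z.co8_smul, Pi.smul_apply, smul_eq_mul, co8_omap, co8_star, map_mul, map_intCast] at h4
  change V (ι (co8 (g (of8 (Pi.single j 1))) i)) = ((sI i * sI j : ℤ) : ℂ) *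
    V (co8 (g (of8 (Pi.single j 1))) i)
  have h5 := congrArg (fun x => V (((sI i : ℤ) : E) * x)) h4
  simp only [← mul_assoc] at h5
  rw [← Int.cast_mul, ← Int.cast_mul, sI_mul_self, Int.cast_one, one_mul, map_mul, map_intCast] at h5
  exact h5.symm

/-- The matrices at `V ∘ ι`. -/
theorem clg_iota {S : Set (E →+* ℂ)} {G : Subgroup (OctL E a b c ≃ₗ[E] OctL E a b c)}
    {g : OctL E a b c ≃ₗ[E] OctL E a b c} (hG : ∀ z ∈ G, ∀ x, z (Im ι x) = Im ι (z x))
    (hg : ∀ x, g (Im ι x) = Im ι (g x)) {Y : S → Matrix (Fin 8) (Fin 8) ℂ}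
    (hY : Y ∈ clg S G g) {V V' : S} (hV : V'.1 = V.1.comp (ι : E →+* E)) (i j : Fin 8) :
    Y V' i j = ((sI i * sI j : ℤ) : ℂ) * Y V i j := by
  have hc : IsClosed {Y : S → Matrix (Fin 8) (Fin 8) ℂ |
      Y V' i j = ((sI i * sI j : ℤ) : ℂ) * Y V i j} := by
    refine isClosed_eq ?_ ?_
    · exact (continuous_apply_apply i j).comp (continuous_apply V')
    · exact continuous_const.mul ((continuous_apply_apply i j).comp (continuous_apply V))
  refine closure_minimal ?_ hc hY
  rintro _ ⟨z, hz, rfl⟩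
  have h1 : ∀ x, (z * g : OctL E a b c ≃ₗ[E] OctL E a b c) (Im ι x) =
      Im ι ((z * g : OctL E a b c ≃ₗ[E] OctL E a b c) x) := by
    intro x
    rw [LinearEquiv.mul_apply, LinearEquiv.mul_apply, hg, hG z hz]
  have h2 := matW_iota h1 V.1 i j
  change matW V'.1 _ i j = _
  rw [hV]
  exact h2

end im

section orb

variable {k L E : Type} [Field k] [NumberField k] [Field L] [NumberField L] [Field E]
  [NumberField E] [Algebra k L] [Algebra k E] [Algebra L E]
  [IsScalarTower k L E] [NeZero (2 : E)] {ρ σ ι : E ≃ₐ[k] E} {α : E}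
  {a b c : kˣ} {q : Lˣ} (H : HyI ρ σ ι α a b c q)

include H

/-- **The induction over the places.** -/
theorem outerI {R : Subgroup (OctL E a b c ≃ₗ[E] OctL E a b c)}
    {g : OctL E a b c ≃ₗ[E] OctL E a b c} (hR : ∀ z ∈ R, ∀ x, z (Im ι x) = Im ι (z x))
    (hg : ∀ x, g (Im ι x) = Im ι (g x))
    (hone : ∀ (_ : Algebra k ℂ) (W : E →ₐ[k] ℂ) (hW : (W : E →+* ℂ) ∈ Bd ρ σ q)
      (hW' : (cmp W ρ : E →+* ℂ) ∈ Bd ρ σ q) (hW'' : (cmp (cmp W ρ) ρ : E →+* ℂ) ∈ Bd ρ σ q),
      (W (algebraMap L E q)).re < 0 → 0 < (W (ρ (algebraMap L E q))).re →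
      ∀ Y ∈ clg (Bd ρ σ q) R g, ∃ Y' ∈ clg (Bd ρ σ q) R g, Y' ⟨W, hW⟩ = 1 ∧
        Y' ⟨cmp W ρ, hW'⟩ = 1 ∧ Y' ⟨cmp (cmp W ρ) ρ, hW''⟩ = 1 ∧
        ∀ V : Bd ρ σ q, V.1.comp (algebraMap k E) ≠ algebraMap k ℂ → Y' V = Y V)
    {Y0 : Bd ρ σ q → Matrix (Fin 8) (Fin 8) ℂ} (hY0 : Y0 ∈ clg (Bd ρ σ q) R g) :
    (1 : Bd ρ σ q → Matrix (Fin 8) (Fin 8) ℂ) ∈ clg (Bd ρ σ q) R g := by
  classical
  have key : ∀ T : Finset (k →+* ℂ), ∃ Y ∈ clg (Bd ρ σ q) R g,
      ∀ V : Bd ρ σ q, V.1.comp (algebraMap k E) ∈ T → Y V = 1 := by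
    intro T
    induction T using Finset.induction_on with
    | empty => exact ⟨Y0, hY0, fun V hV => absurd hV (Finset.notMem_empty _)⟩
    | insert τ T hτ ih =>
      obtain ⟨Y, hY, hY1⟩ := ih
      by_cases hex : ∃ V : Bd ρ σ q, V.1.comp (algebraMap k E) = τ
      · obtain ⟨⟨V0, hV0⟩, hV0τ⟩ := hex
        obtain ⟨W0, hW0, hW0τ, g0, g1⟩ := exists_type_oneI H hV0
        have hτ0 : W0.comp (algebraMap k E) = τ := hW0τ.trans hV0τ
        let iA : Algebra k ℂ := τ.toAlgebra
        let W : E →ₐ[k] ℂ := ⟨W0, fun x => RingHom.congr_fun hτ0 x⟩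
        have hWc : (W : E →+* ℂ) = W0 := rfl
        have hW : (W : E →+* ℂ) ∈ Bd ρ σ q := by rw [hWc]; exact hW0
        have hW' : (cmp W ρ : E →+* ℂ) ∈ Bd ρ σ q := BdI_rho H W0 hW0
        have hW'' : (cmp (cmp W ρ) ρ : E →+* ℂ) ∈ Bd ρ σ q := BdI_rho H _ (BdI_rho H W0 hW0)
        obtain ⟨Y', hY', y0, y1, y2, y3⟩ := hone iA W hW hW' hW'' g0 g1 Y hY
        refine ⟨Y', hY', ?_⟩
        have hconj : ∀ {U V : Bd ρ σ q}, (∀ x, V.1 x = conj (U.1 x)) → Y' U = 1 →
            Y' V = 1 := by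
          intro U V h6 hU2
          rw [H862.clg_conj hY' h6, hU2]
          ext i j
          rw [Matrix.map_apply, Matrix.one_apply]
          split_ifs <;> simp
        have hiota : ∀ {U V : Bd ρ σ q}, V.1 = U.1.comp (ι : E →+* E) → Y' U = 1 →
            Y' V = 1 := by
          intro U V h6 hU2
          ext i j
          rw [clg_iota hR hg hY' h6, hU2, Matrix.one_apply]
          split_ifs with hij
          · subst hij
            rw [sI_mul_self, Int.cast_one, mul_one]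
          · rw [mul_zero]
        rintro ⟨V, hV⟩ hVT
        by_cases hVτ : V.comp (algebraMap k E) = τ
        · let V1 : E →ₐ[k] ℂ := ⟨V, fun x => RingHom.congr_fun hVτ x⟩
          have hVV1 : V = (V1 : E →+* ℂ) := rfl
          obtain ⟨U, hU, hVU⟩ := emb_orbitI H W V1
          have hUB : ∃ hU' : (U : E →+* ℂ) ∈ Bd ρ σ q, Y' ⟨U, hU'⟩ = 1 := by
            rcases hU with rfl | rfl | rfl
            · exact ⟨hW, y0⟩
            · exact ⟨hW', y1⟩
            · exact ⟨hW'', y2⟩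
          obtain ⟨hU1, hU2⟩ := hUB
          have hUι : (cmp U ι : E →+* ℂ) ∈ Bd ρ σ q := BdI_iota H _ hU1
          have hι1 : Y' ⟨cmp U ι, hUι⟩ = 1 := hiota (U := ⟨U, hU1⟩) rfl hU2
          rcases hVU with h5 | h5 | h5 | h5
          · have h6 : V = (U : E →+* ℂ) := by rw [hVV1, h5]
            subst h6
            exact hU2
          · refine hconj (U := ⟨U, hU1⟩) ?_ hU2
            intro x
            change V1 x = _
            rw [h5]
            exact hU1.1 x
          · have h6 : V = (cmp U ι : E →+* ℂ) := by rw [hVV1, h5]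
            subst h6
            exact hι1
          · refine hconj (U := ⟨cmp U ι, hUι⟩) ?_ hι1
            intro x
            change V1 x = _
            rw [h5]
            exact hUι.1 x
        · rw [y3 ⟨V, hV⟩ hVτ]
          exact hY1 ⟨V, hV⟩ ((Finset.mem_insert.1 hVT).resolve_left hVτ)
      · refine ⟨Y, hY, fun V hV => ?_⟩
        rcases Finset.mem_insert.1 hV with h3 | h3
        · exact absurd ⟨V, h3⟩ hex
        · exact hY1 V h3
  obtain ⟨Y, hY, hY1⟩ := key Finset.univ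
  have h2 : Y = 1 := funext fun V => hY1 V (Finset.mem_univ _)
  rwa [h2] at hY

end orb

end Vale.Agent.P011.D4Z.H68
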